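import Mathlib
import Vale.Agent.P045.Good
import Vale.Agent.P045.Intersect
import Vale.Agent.P045.Cover
import Vale.Agent.P045.ExistsGood

namespace Vale.Agent.Results.P045.RyserDisproof

open Finset Vale.Agent.P045

/-- Ryser's conjecture is false, already for intersecting hypergraphs. -/
theorem result :
    (∃ (r : ℕ) (V : Type) (_ : Fintype V) (_ : DecidableEq V) (part : V → Fin r)
      (H : Finset (Finset V)),
      2 ≤ r ∧ H.Nonempty ∧
      (∀ e ∈ H, ∀ i : Fin r, ∃! v, v ∈ e ∧ part v = i) ∧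
      (∀ e ∈ H, ∀ f ∈ H, ∃ v, v ∈ e ∧ v ∈ f) ∧
      ∀ C : Finset V, (∀ e ∈ H, ∃ v ∈ C, v ∈ e) → r ≤ C.card) ∧
    ¬ ∀ (r : ℕ), 2 ≤ r → ∀ (V : Type) (_ : Fintype V) (_ : DecidableEq V) (part : V → Fin r)
        (H : Finset (Finset V)),
        (∀ e ∈ H, ∀ i : Fin r, ∃! v, v ∈ e ∧ part v = i) →
        ∀ ν : ℕ, IsGreatest
          {k | ∃ M ⊆ H, (M : Set (Finset V)).Pairwise Disjoint ∧ M.card = k} ν →
        ∃ C : Finset V, (∀ e ∈ H, ∃ v ∈ C, v ∈ e) ∧ C.card ≤ (r - 1) * ν := by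
  classical
  have main : ∃ (r : ℕ) (V : Type) (_ : Fintype V) (_ : DecidableEq V) (part : V → Fin r)
      (H : Finset (Finset V)),
      2 ≤ r ∧ H.Nonempty ∧
      (∀ e ∈ H, ∀ i : Fin r, ∃! v, v ∈ e ∧ part v = i) ∧
      (∀ e ∈ H, ∀ f ∈ H, ∃ v, v ∈ e ∧ v ∈ f) ∧
      ∀ C : Finset V, (∀ e ∈ H, ∃ v ∈ C, v ∈ e) → r ≤ C.card := by
    obtain ⟨q, hq, K, _, _, _, D, T, κ, g, Dl, err, kk, hG, hS⟩ := exists_good
    let m := Fintype.card K
    have hq1000 : 1000 ≤ q := by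
      have h1 := hS.κ_small; have h2 := hS.m_big
      have h3 : 1000 * (0 + 10) * (0 + 10) ≤ Fintype.card K :=
        le_trans (Nat.mul_le_mul (Nat.mul_le_mul_left _ (by omega)) (by omega)) h2
      nlinarith
    have hcard : Fintype.card (Colour q K) = q + 1 + 2 * m := by
      simp [Colour, m, ZMod.card]
    let e := Fintype.equivFinOfCardEq hcard
    let All : Finset (Colour q K × Blk q K (modM K)) :=
      (D.pts ×ˢ (univ : Finset (Colour q K))).image fun z => (z.2, D.block z.1 z.2)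
    have hmem : ∀ y ∈ D.pts, ∀ c, (c, D.block y c) ∈ All := fun y hy c =>
      mem_image.2 ⟨(y, c), mem_product.2 ⟨hy, mem_univ _⟩, rfl⟩
    let edge : {y // y ∈ D.pts} → Finset {v // v ∈ All} := fun y =>
      univ.image fun c => ⟨(c, D.block y.1 c), hmem y.1 y.2 c⟩
    refine ⟨q + 1 + 2 * m, {v // v ∈ All}, inferInstance, inferInstance, fun v => e v.1.1,
      univ.image edge, by omega, ?_, ?_, ?_, ?_⟩
    · have h : 0 < D.pts.card := by
        have := hG.total; have := hS.Dl_small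
        nlinarith
      obtain ⟨y, hy⟩ := card_pos.1 h
      exact ⟨edge ⟨y, hy⟩, mem_image.2 ⟨⟨y, hy⟩, mem_univ _, rfl⟩⟩
    · intro E hE i
      obtain ⟨y, -, rfl⟩ := mem_image.1 hE
      refine ⟨⟨_, hmem y.1 y.2 (e.symm i)⟩,
        ⟨mem_image.2 ⟨e.symm i, mem_univ _, rfl⟩, e.apply_symm_apply i⟩, ?_⟩
      rintro v ⟨hv, hvi⟩
      obtain ⟨c, -, rfl⟩ := mem_image.1 hv
      have : c = e.symm i := by rw [← hvi]; simp
      subst this; rfl
    · intro E hE F hF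
      obtain ⟨x, -, rfl⟩ := mem_image.1 hE
      obtain ⟨y, -, rfl⟩ := mem_image.1 hF
      obtain ⟨c, hc⟩ := D.exists_shared_block hG.toDesign hq1000 x.2 y.2
      exact ⟨⟨_, hmem x.1 x.2 c⟩, mem_image.2 ⟨c, mem_univ _, rfl⟩,
        mem_image.2 ⟨c, mem_univ _, Subtype.ext (by simp [hc])⟩⟩
    · intro C hC
      have := D.cover_lower_bound hG hS (C.image Subtype.val) (fun y hy => by
        obtain ⟨v, hvC, hv⟩ := hC _ (mem_image.2 ⟨⟨y, hy⟩, mem_univ _, rfl⟩)
        obtain ⟨c, -, rfl⟩ := mem_image.1 hv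
        exact ⟨c, mem_image.2 ⟨_, hvC, rfl⟩⟩)
      have h2 := card_image_le (s := C) (f := Subtype.val)
      omega
  refine ⟨main, fun hall => ?_⟩
  obtain ⟨r, V, i1, i2, part, H, hr, hne, hpart, hint, hcov⟩ := main
  have hν : IsGreatest
      {k | ∃ M ⊆ H, (M : Set (Finset V)).Pairwise Disjoint ∧ M.card = k} 1 := by
    refine ⟨?_, ?_⟩
    · obtain ⟨e, he⟩ := hne
      exact ⟨{e}, by simpa, by simp, by simp⟩
    · rintro k ⟨M, hM, hdisj, rfl⟩
      refine card_le_one.2 fun a ha b hb => ?_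
      by_contra hab
      obtain ⟨v, hva, hvb⟩ := hint a (hM ha) b (hM hb)
      exact disjoint_left.1 (hdisj ha hb hab) hva hvb
  obtain ⟨C, hC, hle⟩ := hall r hr V i1 i2 part H hpart 1 hν
  have := hcov C hC
  omega

end Vale.Agent.Results.P045.RyserDisproof
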